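import Vale.Agent.P280B30.Rows
import Vale.Agent.P299G11.Frm

/-!
# P280L73: morphisms are holomorphic (row LIFT)
-/

open scoped Manifold ContDiff Topology
open MvPolynomial Filter
open Vale.Agent.P272.K Vale.Agent.P300.Final Vale.Agent.P299G40 Vale.Agent.P299G11
open Vale.Agent.P009.AV (aff)
open Vale.Agent.P009.AV.H532 (eval_smul')

noncomputable section

namespace Vale.Agent.P280A

namespace L73

variable {m N : ℕ}

theorem inv {F : Cm m → Fin (N + 1) → ℂ} {z : Cm m} (hF : AnalyticAt ℂ F z)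
    (h : ∀ v, fderiv ℂ F z v = 0 → v = 0) :
    ∃ Ψ : (Fin (N + 1) → ℂ) → Cm m, AnalyticAt ℂ Ψ (F z) ∧ ∀ᶠ y in 𝓝 z, Ψ (F y) = y := by
  obtain ⟨L0, hL⟩ := LinearMap.exists_leftInverse_of_injective
    (fderiv ℂ F z : Cm m →ₗ[ℂ] Fin (N + 1) → ℂ) (LinearMap.ker_eq_bot'.2 h)
  let L : (Fin (N + 1) → ℂ) →L[ℂ] Cm m := LinearMap.toContinuousLinearMap L0
  have a1 : AnalyticAt ℂ (fun y => L (F y)) z := (L.analyticAt _).fun_comp hF
  have a2 : HasFDerivAt (fun y => L (F y)) (ContinuousLinearEquiv.refl ℂ (Cm m) : Cm m →L[ℂ] Cm m)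
      z := (L.hasFDerivAt.comp z hF.differentiableAt.hasFDerivAt).congr_fderiv
        (ContinuousLinearMap.ext fun v => DFunLike.congr_fun hL v)
  have a3 : ContDiffAt ℂ ⊤ (fun y => L (F y)) z := a1.contDiffAt
  let T := a3.toOpenPartialHomeomorph _ a2 (by simp)
  have t1 : z ∈ T.source := a3.mem_toOpenPartialHomeomorph_source a2 (by simp)
  have t4 : AnalyticAt ℂ T.symm (L (F z)) := (a3.to_localInverse a2 (by simp)).analyticAt
  refine ⟨fun w => T.symm (L w), t4.fun_comp (L.analyticAt _), ?_⟩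
  filter_upwards [T.open_source.mem_nhds t1] with y hy
  exact T.left_inv hy

theorem an_eval {g : Cm m → Fin (N + 1) → ℂ} {a : Cm m} (h : AnalyticAt ℂ g a)
    (P : MvPolynomial (Fin (N + 1)) ℂ) : AnalyticAt ℂ (fun z => eval (g z) P) a := by
  induction P using MvPolynomial.induction_on with
  | C a => simpa using analyticAt_const
  | add P Q a b => simpa only [map_add] using a.fun_add b
  | mul_X P i a => simpa only [map_mul, eval_X] using a.fun_mul (analyticAt_pi_iff.1 h i)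

theorem af_of {g : Cm m → Fin (N + 1) → ℂ} {a : Cm m} {P : Cm m → PN N} (h : AnalyticAt ℂ g a)
    (ev : ∀ᶠ z in 𝓝 a, ∃ c : ℂ, c ≠ 0 ∧ g z = c • (P z).rep) {l : Fin (N + 1)}
    (hl : (P a).rep l ≠ 0) :
    AnalyticAt ℂ (fun z => aff l (P z)) a ∧ ∀ᶠ z in 𝓝 a, (P z).rep l ≠ 0 := by
  obtain ⟨c, c0, hc⟩ := ev.self_of_nhds
  have h0 : g a l ≠ 0 := by
    rw [hc]
    exact mul_ne_zero c0 hl
  have h1 := analyticAt_pi_iff.1 h
  refine ⟨(analyticAt_pi_iff.2 fun j => (h1 j).fun_div (h1 l) h0).congr ?_, ?_⟩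
  · filter_upwards [ev] with z ⟨c, c0, hc⟩
    funext j
    rw [hc]
    exact mul_div_mul_left _ _ c0
  · filter_upwards [ev, (h1 l).continuousAt.eventually_ne h0] with z ⟨c, c0, hc⟩ k
    rw [hc] at k
    exact right_ne_zero_of_mul k

theorem at_ch {Y : Type} [TopologicalSpace Y] [ChartedSpace (Cm m) Y] (y : Y) :
    At (chartAt (Cm m) y) y := ⟨chart_mem_atlas _ _, mem_chart_source _ _⟩

theorem cont {Y E : Type} [TopologicalSpace Y] [ChartedSpace (Cm m) Y] [TopologicalSpace E]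
    {u : Y → E} {y : Y}
    (h : ContinuousAt (fun z => u ((chartAt (Cm m) y).symm z)) (chartAt (Cm m) y y)) :
    ContinuousAt u y :=
  (h.comp ((chartAt (Cm m) y).continuousAt (mem_chart_source _ y))).congr
    (((chartAt (Cm m) y).eventually_left_inverse (mem_chart_source _ y)).mono
      fun _ hx => congrArg u hx)

theorem ex_ne (P : PN N) : ∃ l, P.rep l ≠ 0 := Function.ne_iff.1 P.rep_nonzero

theorem eq_of {P Q : PN N} {l i : Fin (N + 1)} (hl : P.rep l ≠ 0) (hi : Q.rep i ≠ 0)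
    (h : ∀ a b, aff l P a * aff i Q b = aff l P b * aff i Q a) : P = Q := by
  rw [← P.mk_rep, ← Q.mk_rep, eq_comm, Projectivization.mk_eq_mk_iff']
  refine ⟨Q.rep l / P.rep l, funext fun a => ?_⟩
  have := h a l
  simp only [aff] at this
  simp only [Pi.smul_apply, smul_eq_mul]
  field_simp at this ⊢
  linear_combination this

end L73

open L73 in
theorem lift73 : LIFT := by
  intro n N K Z X _ _ _ _ _ Φ C S _ _ _ _ _ Θ f _ ⟨inj, hΦ, hZ⟩ ⟨_, hΘ, hC⟩ hf hm
  have hmem : ∀ c, Θ c ∈ C := fun c => hC ▸ Set.mem_range_self c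
  choose φ hφ using fun c => (show f (Θ c) ∈ Set.range Φ from hZ ▸ hm (hmem c))
  have aΦ : ∀ x l, (Φ x).rep l ≠ 0 → AnalyticAt ℂ
      (fun z => aff l (Φ ((chartAt (Cm n) x).symm z))) (chartAt (Cm n) x x) := fun x l hl => by
    obtain ⟨g, g1, -, g3, -⟩ := exists_lift hΦ (at_ch x)
    exact (af_of g1.analyticAt g3 (by rwa [(at_ch x).left_inv])).1
  have aΨ : ∀ c l, (Φ (φ c)).rep l ≠ 0 → AnalyticAt ℂ
      (fun z => aff l (Φ (φ ((chartAt (Cm 1) c).symm z)))) (chartAt (Cm 1) c c) := fun c l hl => by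
    obtain ⟨g, g1, g2, g3, -⟩ := exists_lift hΘ (at_ch c)
    obtain ⟨F, d, F1, F2, F3⟩ := hf _ (hmem c)
    have a1 : AnalyticAt ℂ (fun z a => eval (g z) (F a)) (chartAt (Cm 1) c c) :=
      analyticAt_pi_iff.2 fun a => an_eval g1.analyticAt _
    refine (af_of a1 ?_ (by rwa [(at_ch c).left_inv])).1
    filter_upwards [g3, a1.continuousAt.eventually_ne (by rw [g2]; exact F2)] with z ⟨t, t0, ht⟩ k
    have e1 : (fun a => eval (g z) (F a)) = t ^ d • val F (Θ ((chartAt (Cm 1) c).symm z)) :=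
      funext fun a => by rw [ht, eval_smul' (F1 a)]; rfl
    rw [e1] at k ⊢
    have k' := right_ne_zero_of_smul k
    obtain ⟨u, hu⟩ := Projectivization.exists_smul_eq_mk_rep ℂ _ k'
    refine ⟨t ^ d / u, div_ne_zero (pow_ne_zero d t0) u.ne_zero, ?_⟩
    rw [hφ, F3 _ (hmem _) k', ← hu, Units.smul_def, smul_smul, div_mul_cancel₀ _ u.ne_zero]
  have cφ : ∀ c, ContinuousAt φ c := fun c => tendsto_nhds_of_unique_mapClusterPt fun x hx => by
    obtain ⟨U, U1, U2⟩ := mapClusterPt_iff_ultrafilter.1 hx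
    obtain ⟨l, hl⟩ := ex_ne (Φ x)
    obtain ⟨i, hi⟩ := ex_ne (Φ (φ c))
    have t1 := tendsto_pi_nhds.1 ((cont (u := fun y => aff l (Φ y))
      (aΦ x l hl).continuousAt).tendsto.comp U2)
    have t2 := tendsto_pi_nhds.1 ((cont (u := fun y => aff i (Φ (φ y)))
      (aΨ c i hi).continuousAt).tendsto.mono_left U1)
    refine inj (eq_of hl hi fun a b => tendsto_nhds_unique ((t1 a).mul (t2 b))
      (((t1 b).mul (t2 a)).congr fun y => ?_))
    simp only [aff, Function.comp_apply]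
    ring
  refine ⟨φ, fun c => contMDiffAt_iff.2 ⟨cφ c, ?_⟩, hφ⟩
  obtain ⟨l, hl⟩ := ex_ne (Φ (φ c))
  obtain ⟨g, g1, g2, g3, g4⟩ := exists_lift hΦ (at_ch (φ c))
  obtain ⟨Ψ, Ψ1, Ψ2⟩ := inv (aΦ _ l hl) fun v hv =>
    g4 v (fderiv ℂ g (chartAt (Cm n) (φ c) (φ c)) v l / (Φ (φ c)).rep l) (funext fun j => by
      have h1 := fderiv_aff g1 g2 g3 hl j v
      have h2 := (hasFDerivAt_pi'.1 (aΦ _ l hl).differentiableAt.hasFDerivAt j).fderiv
      rw [h2, ContinuousLinearMap.comp_apply, hv, map_zero, eq_comm, div_eq_zero_iff,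
        or_iff_left (pow_ne_zero 2 hl), sub_eq_zero] at h1
      simp only [Pi.smul_apply, smul_eq_mul]
      field_simp
      linear_combination h1)
  have a1 : AnalyticAt ℂ (fun z => Ψ (aff l (Φ (φ ((chartAt (Cm 1) c).symm z)))))
      (chartAt (Cm 1) c c) := AnalyticAt.fun_comp (g := Ψ) (by
    rw [(at_ch (φ c)).left_inv] at Ψ1
    rwa [(at_ch c).left_inv]) (aΨ c l hl)
  have t : Tendsto (fun z => φ ((chartAt (Cm 1) c).symm z)) (𝓝 (chartAt (Cm 1) c c)) (𝓝 (φ c)) :=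
    (cφ c).tendsto.comp ((chartAt (Cm 1) c).tendsto_symm (mem_chart_source _ c))
  have a2 : AnalyticAt ℂ (fun z => chartAt (Cm n) (φ c) (φ ((chartAt (Cm 1) c).symm z)))
      (chartAt (Cm 1) c c) := a1.congr (by
    filter_upwards [t.eventually (((chartAt (Cm n) (φ c)).continuousAt
      (mem_chart_source _ _)).eventually Ψ2), t.eventually (chart_source_mem_nhds (Cm n) (φ c))]
      with z a b
    rwa [(chartAt (Cm n) (φ c)).left_inv b] at a)
  simpa [Function.comp_def] using a2.contDiffAt.contDiffWithinAt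

end Vale.Agent.P280A
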